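import Vale.Agent.P269AV.IF

/-!
# P269AX / Exp : the exponential of the potential exists and solves its differential equation
-/

noncomputable section

namespace Vale.Agent.P269AX

open Vale.Agent.P269AV

variable {ι : Type} (X : Frob ι)

theorem cf_add (d : ℕ) (j : ℤ) (x y : Λ) : cf d j (x + y) = cf d j x + cf d j y := by
  simp [cf]

theorem cf_sub (d : ℕ) (j : ℤ) (x y : Λ) : cf d j (x - y) = cf d j x - cf d j y := by
  simp [cf]

theorem cf_zero (d : ℕ) (j : ℤ) : cf d j 0 = 0 := by simp [cf]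

/-- the constants -/
def kc : ℂ →+* Λ := (PowerSeries.C : LaurentSeries ℂ →+* Λ).comp HahnSeries.C

theorem cf_smul (d : ℕ) (j : ℤ) (c : ℂ) (x : Λ) : cf d j (kc c * x) = c * cf d j x := by
  simp only [cf, kc, RingHom.comp_apply, PowerSeries.coeff_C_mul, HahnSeries.C_apply,
    HahnSeries.coeff_single_mul, sub_zero]

theorem ev {n : ℕ} (h : Even n) : (-1 : Λ) ^ n = 1 := by
  obtain ⟨k, rfl⟩ := h
  rw [← two_mul, pow_mul]
  have : (-1 : Λ) ^ 2 = 1 := by ring
  rw [this, one_pow]

theorem cf_sum {α : Type} (d : ℕ) (j : ℤ) (s : Finset α) (f : α → Λ) :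
    cf d j (∑ i ∈ s, f i) = ∑ i ∈ s, cf d j (f i) := by
  classical
  induction s using Finset.induction_on with
  | empty => simp [cf_zero]
  | insert a s ha ih => rw [Finset.sum_insert ha, Finset.sum_insert ha, cf_add, ih]

theorem cf_ext {x y : Λ} (h : ∀ d j, cf d j x = cf d j y) : x = y := by
  ext d j
  exact h d j

/-- the filtration of the coefficient ring -/
def Fl (k : ℤ) (x : Λ) : Prop := ∀ d j, cf d j x ≠ 0 → k ≤ 2 * j + 3 * d

theorem Fl.add {k : ℤ} {x y : Λ} (hx : Fl k x) (hy : Fl k y) : Fl k (x + y) := by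
  intro d j h
  rw [cf_add] at h
  by_cases h1 : cf d j x = 0
  · exact hy d j (by simpa [h1] using h)
  · exact hx d j h1

theorem Fl.mul {k l : ℤ} {x y : Λ} (hx : Fl k x) (hy : Fl l y) : Fl (k + l) (x * y) := by
  intro d j h
  unfold cf at h
  rw [PowerSeries.coeff_mul, HahnSeries.coeff_sum] at h
  obtain ⟨p, hp, hne⟩ := Finset.exists_ne_zero_of_sum_ne_zero h
  have hd : p.1 + p.2 = d := Finset.HasAntidiagonal.mem_antidiagonal.1 hp
  obtain ⟨a, ha, b, hb, hab⟩ := HahnSeries.support_mul_subset (show j ∈ HahnSeries.support _ from hne)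
  have h1 := hx p.1 a ha
  have h2 := hy p.2 b hb
  have hab' : a + b = j := hab
  have hd' : (p.1 : ℤ) + p.2 = d := by exact_mod_cast hd
  linarith

theorem Fl.sgn {k : ℤ} {x : Λ} (hx : Fl k x) (n : ℕ) : Fl k ((-1) ^ n * x) := by
  intro d j h
  apply hx d j
  rcases neg_one_pow_eq_or Λ n with h1 | h1
  · simpa [h1] using h
  · rw [h1, neg_one_mul] at h
    intro h0
    apply h
    have := cf_sub d j 0 x
    rw [zero_sub, h0, cf_zero] at this
    simpa using this

/-- the filtration of the formal functions -/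
def Fil (k : ℤ) (F : Ser ι) : Prop := ∀ w, Fl (k - w.length) (F w)

theorem Fil.dx {k : ℤ} {F : Ser ι} (h : Fil k F) (x : ℕ × ι) :
    Fil (k - 1) (fun u => F (x :: u)) := by
  intro w
  have := h (x :: w)
  simp only [List.length_cons, Nat.cast_add, Nat.cast_one] at this
  convert this using 1
  ring

theorem mul_fil : ∀ (w : List (ℕ × ι)) {k l : ℤ} {F G : Ser ι}, Fil k F → Fil l G →
    Fl (k + l - w.length) (X.mul F G w)
  | [], k, l, F, G, hF, hG => by
    have := (hF []).mul (hG [])
    simpa [Frob.mul] using this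
  | x :: w, k, l, F, G, hF, hG => by
    rw [Frob.mul]
    have h1 := mul_fil w (hF.dx x) hG
    have h2 := mul_fil w (k := k) (F := fun u => (-1) ^ (X.deg [x] * X.deg u) * F u)
      (fun u => (hF u).sgn _) (hG.dx x)
    have e1 : k + l - ((x :: w).length : ℤ) = k - 1 + l - w.length := by
      simp only [List.length_cons, Nat.cast_add, Nat.cast_one]; ring
    have e2 : k + (l - 1) - (w.length : ℤ) = k - 1 + l - w.length := by ring
    rw [e1]
    rw [e2] at h2
    exact h1.add h2

theorem Fil.mul {k l : ℤ} {F G : Ser ι} (hF : Fil k F) (hG : Fil l G) :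
    Fil (k + l) (X.mul F G) := fun w => mul_fil X w hF hG

theorem fil_one : Fil 0 (cst 1 : Ser ι) := by
  intro w d j h
  by_cases hw : w = []
  · subst hw
    simp only [cst, if_true, cf, PowerSeries.coeff_one] at h
    by_cases hd : d = 0
    · subst hd
      simp only [if_true, HahnSeries.coeff_one] at h
      by_cases hj : j = 0
      · simp [hj]
      · simp [hj] at h
    · simp [hd] at h
  · simp [cst, hw, cf_zero] at h

theorem fil_pow {F : Ser ι} (hF : Fil 1 F) : ∀ n : ℕ, Fil n (X.pow F n)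
  | 0 => by simpa [Frob.pow] using fil_one
  | n + 1 => by
    have := hF.mul X (fil_pow hF n)
    rw [Frob.pow]
    convert this using 1
    push_cast; ring

theorem mul_add' : ∀ (w : List (ℕ × ι)) (F G H : Ser ι),
    X.mul F (fun u => G u + H u) w = X.mul F G w + X.mul F H w
  | [], F, G, H => by simp [Frob.mul, mul_add]
  | x :: w, F, G, H => by
    rw [Frob.mul, Frob.mul, Frob.mul, mul_add' w, mul_add' w _ (fun u => G (x :: u))]
    ring

theorem mul_sm : ∀ (w : List (ℕ × ι)) (c : Λ) (F G : Ser ι),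
    X.mul F (fun u => c * G u) w = c * X.mul F G w
  | [], c, F, G => by simp only [Frob.mul]; ring
  | x :: w, c, F, G => by
    rw [Frob.mul, Frob.mul, mul_sm w, mul_sm w c _ (fun u => G (x :: u))]
    ring

theorem sm_mul : ∀ (w : List (ℕ × ι)) (c : Λ) (F G : Ser ι),
    X.mul (fun u => c * F u) G w = c * X.mul F G w
  | [], c, F, G => by simp only [Frob.mul]; ring
  | x :: w, c, F, G => by
    rw [Frob.mul, Frob.mul, sm_mul w c (fun u => F (x :: u))]
    have : (fun u => (-1) ^ (X.deg [x] * X.deg u) * (c * F u)) =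
        fun u => c * ((-1) ^ (X.deg [x] * X.deg u) * F u) := by
      funext u; ring
    rw [this, sm_mul w c]
    ring

theorem mul_zero' (w : List (ℕ × ι)) (F : Ser ι) : X.mul F (fun _ => 0) w = 0 := by
  simpa using mul_sm X w 0 F (fun _ => 0)

theorem mul_sum' {α : Type} (s : Finset α) (w : List (ℕ × ι)) (F : Ser ι) (G : α → Ser ι) :
    X.mul F (fun u => ∑ i ∈ s, G i u) w = ∑ i ∈ s, X.mul F (G i) w := by
  classical
  induction s using Finset.induction_on with
  | empty => simpa using mul_zero' X w F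
  | insert a s ha ih =>
    simp only [Finset.sum_insert ha]
    rw [mul_add', ih]

/-- homogeneous of parity `a` -/
def Par (a : ℕ) (F : Ser ι) : Prop := ∀ u, F u ≠ 0 → Even (X.deg u + a)

theorem deg_cons (x : ℕ × ι) (u : List (ℕ × ι)) : X.deg (x :: u) = X.deg [x] + X.deg u := by
  simp [Frob.deg]

theorem Par.dx {a : ℕ} {F : Ser ι} (h : Par X a F) (x : ℕ × ι) :
    Par X (a + X.deg [x]) (fun u => F (x :: u)) := by
  intro u hu
  have := h _ hu
  rw [deg_cons] at this
  convert this using 1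
  ring

theorem Par.sg {a : ℕ} {F : Ser ι} (h : Par X a F) (k : ℕ) :
    (fun u => (-1) ^ (k * X.deg u) * F u) = fun u => (-1) ^ (k * a) * F u := by
  funext u
  by_cases hu : F u = 0
  · simp [hu]
  · have h1 : ((-1 : Λ)) ^ (k * (X.deg u + a)) = 1 := ev ((h u hu).mul_left k)
    have h2 : ((-1 : Λ)) ^ (k * a) * (-1) ^ (k * a) = 1 := by
      rw [← pow_add]; exact ev ⟨_, rfl⟩
    rw [mul_add, pow_add] at h1
    have : ((-1 : Λ)) ^ (k * X.deg u) = (-1) ^ (k * a) := by
      linear_combination (-1 : Λ) ^ (k * a) * h1 - (-1 : Λ) ^ (k * X.deg u) * h2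
    rw [this]

theorem dx_mul {a : ℕ} {F : Ser ι} (h : Par X a F) (G : Ser ι) (x : ℕ × ι) :
    (fun u => X.mul F G (x :: u)) = fun u => X.mul (fun v => F (x :: v)) G u +
      (-1) ^ (X.deg [x] * a) * X.mul F (fun v => G (x :: v)) u := by
  funext u
  rw [Frob.mul, h.sg, sm_mul]

theorem lcomm : ∀ (w : List (ℕ × ι)) {a b : ℕ} {F G : Ser ι} (H : Ser ι), Par X a F → Par X b G →
    X.mul F (X.mul G H) w = (-1) ^ (a * b) * X.mul G (X.mul F H) w
  | [], a, b, F, G, H, hF, hG => by
    simp only [Frob.mul]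
    by_cases h1 : F [] = 0
    · simp [h1]
    · have : Even a := by simpa [Frob.deg] using hF [] h1
      rw [ev (this.mul_right b)]
      ring
  | x :: w, a, b, F, G, H, hF, hG => by
    rw [congrFun (dx_mul X hF (X.mul G H) x) w, congrFun (dx_mul X hG (X.mul F H) x) w,
      dx_mul X hG, dx_mul X hF, mul_add', mul_add', mul_sm, mul_sm,
      lcomm w H (hF.dx X x) hG, lcomm w H hF (hG.dx X x), lcomm w _ hF hG]
    have h2 : ((-1 : Λ)) ^ (X.deg [x] * a) * (-1) ^ (X.deg [x] * a) = 1 := by
      rw [← pow_add]; exact ev ⟨_, rfl⟩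
    rw [add_mul, mul_add a, pow_add, pow_add, mul_comm a (X.deg [x])]
    linear_combination ((-1 : Λ) ^ (a * b) * X.mul (fun v => G (x :: v)) (X.mul F H) w) * h2

theorem dx_pow {F : Ser ι} (hF : Par X 0 F) (x : ℕ × ι) : ∀ n : ℕ,
    (fun u => X.pow F (n + 1) (x :: u)) =
      fun u => ((n : Λ) + 1) * X.mul (fun v => F (x :: v)) (X.pow F n) u
  | 0 => by
    change (fun u => X.mul F (X.pow F 0) (x :: u)) = _
    rw [dx_mul X hF]
    funext u
    have : (fun v => X.pow F 0 (x :: v)) = fun _ => 0 := by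
      funext v; simp [Frob.pow, cst]
    rw [this, mul_zero']
    simp
  | n + 1 => by
    change (fun u => X.mul F (X.pow F (n + 1)) (x :: u)) = _
    rw [dx_mul X hF, dx_pow hF x n]
    funext u
    rw [mul_sm, lcomm X u _ hF (hF.dx X x)]
    change _ = _ * X.mul _ (X.mul F (X.pow F n)) u
    change X.mul _ (X.mul F (X.pow F n)) u + _ = _
    push_cast
    ring

/-- the partial sums of the exponential series -/
def ps (F : Ser ι) (M : ℕ) : Ser ι := fun w =>
  ∑ n ∈ Finset.range M, kc (n.factorial : ℂ)⁻¹ * X.pow F n w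

theorem cf_ps (F : Ser ι) (M d : ℕ) (j : ℤ) (w : List (ℕ × ι)) : cf d j (ps X F M w) =
    ∑ n ∈ Finset.range M, cf d j (X.pow F n w) / n.factorial := by
  rw [ps, cf_sum]
  refine Finset.sum_congr rfl fun n _ => ?_
  rw [cf_smul, div_eq_inv_mul]

theorem dx_ps {F : Ser ι} (hF : Par X 0 F) (x : ℕ × ι) (M : ℕ) (u : List (ℕ × ι)) :
    ps X F (M + 1) (x :: u) = X.mul (fun v => F (x :: v)) (ps X F M) u := by
  unfold ps
  rw [mul_sum', Finset.sum_range_succ']
  have h0 : X.pow F 0 (x :: u) = 0 := by simp [Frob.pow, cst]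
  rw [h0, mul_zero, add_zero]
  refine Finset.sum_congr rfl fun n _ => ?_
  rw [congrFun (dx_pow X hF x n) u, mul_sm, ← mul_assoc]
  congr 1
  have h1 : (n : Λ) + 1 = kc ((n : ℂ) + 1) := by simp
  rw [h1, ← map_mul]
  congr 1
  have h2 : (n.factorial : ℂ) ≠ 0 := by exact_mod_cast n.factorial_ne_zero
  have h3 : (n : ℂ) + 1 ≠ 0 := by exact_mod_cast n.succ_ne_zero
  rw [Nat.factorial_succ]
  push_cast
  field_simp

theorem pow_van {F : Ser ι} (hF : Fil 1 F) {w : List (ℕ × ι)} {d : ℕ} {j : ℤ} {n : ℕ}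
    (h : 2 * j + 3 * d + w.length < n) : cf d j (X.pow F n w) = 0 := by
  by_contra h0
  have := fil_pow X hF n w d j h0
  linarith

theorem ps_stab {F : Ser ι} (hF : Fil 1 F) {w : List (ℕ × ι)} {d : ℕ} {j : ℤ} {M : ℕ}
    (h : 2 * j + 3 * d + w.length < M) :
    cf d j (ps X F (2 * j + 3 * d + w.length + 1).toNat w) = cf d j (ps X F M w) := by
  rw [cf_ps, cf_ps]
  refine Finset.sum_subset (Finset.range_subset_range.2 (by omega)) fun n _ hn => ?_
  rw [pow_van X hF, zero_div]
  simp only [Finset.mem_range, not_lt] at hn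
  omega

/-- the exponential -/
def ex (F : Ser ι) : Ser ι := fun w => PowerSeries.mk fun d =>
  HahnSeries.ofSuppBddBelow
    (fun j : ℤ => cf d j (ps X F (2 * j + 3 * d + w.length + 1).toNat w))
    ⟨-(3 * d + w.length + 1), fun j hj => by
      by_contra hlt
      apply hj
      have : (2 * j + 3 * d + w.length + 1).toNat = 0 := by omega
      simp only [this, ps, Finset.range_zero, Finset.sum_empty, cf_zero]⟩

theorem cf_ex {F : Ser ι} (hF : Fil 1 F) {w : List (ℕ × ι)} {d : ℕ} {j : ℤ} {M : ℕ}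
    (h : 2 * j + 3 * d + w.length < M) : cf d j (ex X F w) = cf d j (ps X F M w) := by
  rw [← ps_stab X hF h]
  simp only [cf, ex, PowerSeries.coeff_mk, HahnSeries.coeff_ofSuppBddBelow]

theorem isExp {F : Ser ι} (hF : Fil 1 F) : X.IsExp F (ex X F) := by
  intro w d j
  refine ⟨(2 * j + 3 * d + w.length + 1).toNat, fun n hn => pow_van X hF (by omega), ?_⟩
  rw [← cf_ps]
  exact cf_ex X hF (by omega)

theorem dx_ex {F : Ser ι} (hF : Fil 1 F) (hP : Par X 0 F) (x : ℕ × ι) :
    (fun u => ex X F (x :: u)) = X.mul (fun u => F (x :: u)) (ex X F) := by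
  funext u
  refine cf_ext fun d j => ?_
  obtain ⟨M, hM⟩ : ∃ M : ℕ, 2 * j + 3 * d + u.length < M :=
    ⟨(2 * j + 3 * d + u.length + 1).toNat, by omega⟩
  have h1 : Fil M (fun v => ex X F v - ps X F M v) := by
    intro v d' j' h
    by_contra hlt
    apply h
    rw [cf_sub, cf_ex X hF (M := M) (by omega), sub_self]
  have h2 : ex X F = fun v => ps X F M v + (ex X F v - ps X F M v) := by
    funext v; ring
  have h3 : cf d j (X.mul (fun u => F (x :: u)) (fun v => ex X F v - ps X F M v) u) = 0 := by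
    by_contra h0
    have := mul_fil X u (hF.dx x) h1 d j h0
    omega
  rw [cf_ex X hF (M := M + 1) (by simp only [List.length_cons]; omega), dx_ps X hP]
  conv_rhs => rw [h2, mul_add', cf_add, h3, add_zero]

theorem cf_pot (N : ℕ → ℕ → List (ℕ × ι) → ℂ) (w : List (ℕ × ι)) (d : ℕ) (j : ℤ) :
    cf d j (pot N w) = if j + 1 < 0 then 0 else N (j + 1).natAbs d w.reverse := by
  simp only [cf, pot, PowerSeries.coeff_mk, HahnSeries.coeff_single_mul, one_mul, sub_neg_eq_add]
  rw [PowerSeries.coeff_coe]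
  simp

theorem rowE : RowE := by
  intro ι _ _ X N h1 h2
  have hF : Fil 1 (pot N) := by
    intro w d j h
    rw [cf_pot] at h
    split_ifs at h with hj
    · exact absurd rfl h
    · rcases Nat.eq_zero_or_pos d with rfl | hd
      · have := h1 _ _ h
        rw [List.length_reverse] at this
        omega
      · omega
  have hP : Par X 0 (pot N) := by
    intro u hu
    by_contra hne
    apply hu
    refine cf_ext fun d j => ?_
    rw [cf_pot, cf_zero]
    split_ifs with hj
    · rfl
    · by_contra h0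
      have := h2 _ _ _ h0
      apply hne
      simpa [Frob.deg, List.map_reverse, List.sum_reverse] using this
  exact ⟨ex X (pot N), isExp X hF, dx_ex X hF hP⟩

end Vale.Agent.P269AX
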